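import Vale.Agent.Lib.P307.Shrink

/-!
# The growth lemma for AECs in monadic vocabularies
-/

open FirstOrder FirstOrder.Language Cardinal Set

universe u

namespace Vale.Agent.Lib.P307

variable {L : FirstOrder.Language.{u, u}}

theorem cnt_sub (hL : Monadic L) {M : Type u} [L.Structure M] (T : Set M)
    (t : Set (L.Relations 1)) :
    cnt L (sub hL T) t = #{y | y ∈ T ∧ col L y = t} := by
  unfold cnt
  apply Cardinal.mk_congr
  refine Equiv.trans (Equiv.subtypeEquivRight (fun z => ?_))
    (Equiv.subtypeSubtypeEquivSubtypeInter (fun y => y ∈ T) (fun y => col L y = t))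
  rw [← col_coe]

theorem mk_fib_le_preimage {M Ω : Type u} [L.Structure M] [L.Structure Ω] (g : M → Ω)
    (hcol : ∀ y, col L (g y) = col L y) (P : Set Ω) (hP : P ⊆ range g)
    (t : Set (L.Relations 1)) :
    #{w | w ∈ P ∧ col L w = t} ≤ #{y : M | g y ∈ P ∧ col L y = t} := by
  calc #{w | w ∈ P ∧ col L w = t} ≤ #(g '' {y : M | g y ∈ P ∧ col L y = t}) := by
        apply mk_le_mk_of_subset
        rintro w ⟨hwP, hwt⟩
        obtain ⟨y, rfl⟩ := hP hwP
        exact ⟨y, ⟨hwP, by rw [← hcol]; exact hwt⟩, rfl⟩
    _ ≤ #{y : M | g y ∈ P ∧ col L y = t} := mk_image_le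

/-- **Growth lemma.** If `T0 ⊆ Ω` is in `K` and every element outside `T0` has a colour that
occurs more than `lam` times in `T0`, then `Ω` is in `K`. -/
theorem mem_of_grow (hL : Monadic L) (K : AEC L) {lam : Cardinal.{u}} (hls : K.LSWitness lam)
    {Ω : Type u} [L.Structure Ω] (T0 : Set Ω) (hT0 : K.mem (sub hL T0))
    (hbig : ∀ x, x ∉ T0 → lam < #{y | y ∈ T0 ∧ col L y = col L x}) : K.mem Ω := by
  classical
  have hlam : ℵ₀ ≤ lam := hls.1
  have huniv : (univ : Set Ω) ∈ {T : Set Ω | T0 ⊆ T ∧ K.mem (sub hL T)} := by
    apply exhaust T0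
    · exact ⟨le_rfl, hT0⟩
    · rintro T ⟨hT0T, hT⟩ x
      refine ⟨hT0T.trans (subset_insert _ _), ?_⟩
      by_cases hx : x ∈ T
      · rw [insert_eq_of_mem hx]
        exact hT
      · have hiso : Nonempty ((sub hL T) ≃[L] (sub hL (insert x T))) := by
          apply iso_of_cnt hL
          intro t
          rw [cnt_sub, cnt_sub]
          by_cases ht : col L x = t
          · have hset : {y | y ∈ insert x T ∧ col L y = t} =
                insert x {y | y ∈ T ∧ col L y = t} := by
              ext y
              simp only [mem_ofPred_eq, mem_insert_iff]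
              constructor
              · rintro ⟨rfl | hy, hyt⟩
                · exact Or.inl rfl
                · exact Or.inr ⟨hy, hyt⟩
              · rintro (rfl | ⟨hy, hyt⟩)
                · exact ⟨Or.inl rfl, ht⟩
                · exact ⟨Or.inr hy, hyt⟩
            rw [hset, mk_insert (fun h => hx h.1)]
            symm
            apply add_one_eq
            have h1 := hbig x (fun h => hx (hT0T h))
            rw [ht] at h1
            exact hlam.trans (h1.le.trans (mk_le_mk_of_subset fun y hy => ⟨hT0T hy.1, hy.2⟩))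
          · have hset : {y | y ∈ insert x T ∧ col L y = t} = {y | y ∈ T ∧ col L y = t} := by
              ext y
              simp only [mem_ofPred_eq, mem_insert_iff]
              constructor
              · rintro ⟨rfl | hy, hyt⟩
                · exact absurd hyt ht
                · exact ⟨hy, hyt⟩
              · rintro ⟨hy, hyt⟩
                exact ⟨Or.inr hy, hyt⟩
            rw [hset]
        exact K.mem_iso hiso.some hT
    · intro ι _ _ _ S hmono hS
      refine ⟨(hS (Classical.arbitrary ι)).1.trans (subset_iUnion S _), ?_⟩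
      let S' : ι → L.Substructure (sub hL (⋃ i, S i)) := fun i => sub hL {x | (x : Ω) ∈ S i}
      refine (K.chain_union (sub hL (⋃ i, S i)) ι S' ?_ ?_ ?_).1
      · intro i j hij x hx
        exact hmono hij hx
      · intro i j hij
        -- the structure `S' j` is isomorphic to `sub (S j)`
        let e : (sub hL (S j)) ≃ (S' j) :=
          { toFun := fun x => ⟨⟨x.1, mem_iUnion.mpr ⟨j, x.2⟩⟩, x.2⟩
            invFun := fun x => ⟨x.1.1, x.2⟩
            left_inv := fun x => rfl
            right_inv := fun x => rfl }
        have he : ∀ x, col L (e x) = col L x := by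
          intro x
          rw [← col_coe, ← col_coe, ← col_coe]
          rfl
        have hN : K.mem (S' j) := K.mem_iso (isoOfEquiv hL e he) (hS j).2
        have hst := strong_of_big hL K hls hN {x : S' j | ((x : sub hL (⋃ i, S i)) : Ω) ∈ S i} (by
          intro x hx
          have hx0 : ((x : sub hL (⋃ i, S i)) : Ω) ∉ T0 := fun h => hx ((hS i).1 h)
          have h1 := hbig _ hx0
          have hcol : ∀ y : S' j, col L ((y : sub hL (⋃ i, S i)) : Ω) = col L y := by
            intro y
            rw [col_coe, col_coe]
          rw [hcol] at h1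
          refine lt_of_lt_of_le h1 ?_
          refine (mk_le_mk_of_subset ?_).trans (mk_fib_le_preimage
            (fun y : S' j => ((y : sub hL (⋃ i, S i)) : Ω)) hcol (S i) ?_ (col L x))
          · intro y hy
            exact ⟨(hS i).1 hy.1, hy.2⟩
          · intro w hw
            exact ⟨⟨⟨w, mem_iUnion.mpr ⟨i, hw⟩⟩, hmono hij hw⟩, rfl⟩)
        have heq : sub hL {x : S' j | ((x : sub hL (⋃ i, S i)) : Ω) ∈ S i} =
            (S' i).comap (S' j).subtype.toHom := by
          ext x
          rfl
        rw [← heq]
        exact hst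
      · intro x
        obtain ⟨i, hi⟩ := mem_iUnion.mp x.2
        exact ⟨i, hi⟩
  have e : (sub hL (univ : Set Ω)) ≃[L] Ω := isoOfEquiv hL (Equiv.Set.univ Ω) (by
    intro x
    exact col_coe _ x)
  exact K.mem_iso e huniv.2

end Vale.Agent.Lib.P307
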