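import Mathlib

/-!
A purely set-theoretic lemma: a family of subsets of `D` that is closed under unions of
well-ordered chains and is cofinal among the subsets of size at most `lam` contains `D`.
-/

open Cardinal Set

universe u

namespace Vale.Agent.Lib.P307

theorem chain_cofinal_aux {α : Type u} (D : Set α) (Z : Set (Set α)) (lam : Cardinal.{u})
    (hlam : ℵ₀ ≤ lam)
    (h1 : ∀ (ι : Type u) [LinearOrder ι] [WellFoundedLT ι] [Nonempty ι] (S : ι → Set α),
        Monotone S → (∀ i, S i ∈ Z) → (⋃ i, S i) ∈ Z)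
    (h2 : ∀ A : Set α, A ⊆ D → #A ≤ lam → ∃ M ∈ Z, A ⊆ M ∧ M ⊆ D ∧ #M ≤ lam) :
    ∀ θ : Cardinal.{u}, lam ≤ θ → ∀ A : Set α, A ⊆ D → #A ≤ θ →
      ∃ M ∈ Z, A ⊆ M ∧ M ⊆ D ∧ #M ≤ θ := by
  classical
  intro θ
  induction θ using WellFoundedLT.induction with
  | ind θ IH =>
    intro hθ A hAD hAθ
    rcases eq_or_lt_of_le hθ with rfl | hlt
    · exact h2 A hAD hAθ
    by_cases hA : #A < θ
    · obtain ⟨M, hMZ, hAM, hMD, hM⟩ := IH (max #A lam) (max_lt hA hlt) (le_max_right _ _) A hAD
        (le_max_left _ _)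
      exact ⟨M, hMZ, hAM, hMD, hM.trans (max_le hAθ hθ)⟩
    have hAeq : #A = θ := le_antisymm hAθ (not_lt.mp hA)
    have hθinf : ℵ₀ ≤ θ := hlam.trans hθ
    let ι := θ.ord.ToType
    have hι : #ι = θ := mk_ord_toType θ
    obtain ⟨e⟩ : Nonempty (ι ≃ A) := Cardinal.eq.mp (hι.trans hAeq.symm)
    have : Nonempty ι := by
      rw [← mk_ne_zero_iff, hι]
      exact (lt_of_lt_of_le aleph0_pos hθinf).ne'
    let th : ι → Cardinal.{u} := fun i => max #(Iio i) lam
    have hth : ∀ i, th i < θ := fun i => max_lt (mk_Iio_toType_ord_lt i) hlt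
    have hthinf : ∀ i, ℵ₀ ≤ th i := fun i => hlam.trans (le_max_right _ _)
    have hthmono : ∀ i j : ι, j ≤ i → th j ≤ th i := by
      intro i j hji
      exact max_le_max (mk_le_mk_of_subset (Iio_subset_Iio hji)) le_rfl
    let next : Set α → Cardinal.{u} → Set α := fun B c =>
      if h : ∃ M ∈ Z, B ⊆ M ∧ M ⊆ D ∧ #M ≤ c then h.choose else ∅
    have hnext : ∀ B c, (∃ M ∈ Z, B ⊆ M ∧ M ⊆ D ∧ #M ≤ c) →
        next B c ∈ Z ∧ B ⊆ next B c ∧ next B c ⊆ D ∧ #(next B c) ≤ c := by
      intro B c h
      simp only [next, dif_pos h]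
      exact h.choose_spec
    let S : ι → Set α := WellFounded.fix (wellFounded_lt (α := ι))
      (fun i rec => next (insert (e i : α) (⋃ j : Iio i, rec j.1 j.2)) (th i))
    have hS : ∀ i, S i = next (insert (e i : α) (⋃ j : Iio i, S j.1)) (th i) := by
      intro i
      exact WellFounded.fix_eq _ _ i
    have hP : ∀ i, S i ∈ Z ∧ insert (e i : α) (⋃ j : Iio i, S j.1) ⊆ S i ∧ S i ⊆ D ∧
        #(S i) ≤ th i := by
      intro i
      induction i using WellFoundedLT.induction with
      | ind i ih =>
        rw [hS i]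
        apply hnext
        apply IH (th i) (hth i) (le_max_right _ _)
        · apply insert_subset (hAD (e i).2)
          apply iUnion_subset
          intro j
          exact (ih j.1 j.2).2.2.1
        · calc #(insert (e i : α) (⋃ j : Iio i, S j.1) : Set α)
              ≤ #(⋃ j : Iio i, S j.1 : Set α) + 1 := mk_insert_le
            _ ≤ #(Iio i) * (⨆ j : Iio i, #(S j.1)) + 1 := by gcongr; exact mk_iUnion_le _
            _ ≤ th i * th i + th i := by
                gcongr
                · exact le_max_left _ _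
                · apply ciSup_le'
                  intro j
                  exact (ih j.1 j.2).2.2.2.trans (hthmono i j.1 (le_of_lt j.2))
                · exact (one_lt_aleph0.le).trans (hthinf i)
            _ = th i := by rw [mul_eq_self (hthinf i), add_eq_self (hthinf i)]
    have hmono : Monotone S := by
      intro j i hji
      rcases eq_or_lt_of_le hji with rfl | hlt'
      · exact le_rfl
      · intro x hx
        apply (hP i).2.1
        apply mem_insert_of_mem
        exact mem_iUnion.mpr ⟨⟨j, hlt'⟩, hx⟩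
    refine ⟨⋃ i, S i, h1 ι S hmono (fun i => (hP i).1), ?_, ?_, ?_⟩
    · intro a ha
      refine mem_iUnion.mpr ⟨e.symm ⟨a, ha⟩, ?_⟩
      apply (hP _).2.1
      have : ((e (e.symm ⟨a, ha⟩) : A) : α) = a := by simp
      rw [this]
      exact mem_insert _ _
    · exact iUnion_subset fun i => (hP i).2.2.1
    · calc #(⋃ i, S i : Set α) ≤ #ι * ⨆ i, #(S i) := mk_iUnion_le _
        _ ≤ θ * θ := by
            gcongr
            · exact hι.le
            · exact ciSup_le' fun i => ((hP i).2.2.2.trans (hth i).le)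
        _ = θ := mul_eq_self hθinf

theorem chain_cofinal {α : Type u} (D : Set α) (Z : Set (Set α)) (lam : Cardinal.{u})
    (hlam : ℵ₀ ≤ lam)
    (h1 : ∀ (ι : Type u) [LinearOrder ι] [WellFoundedLT ι] [Nonempty ι] (S : ι → Set α),
        Monotone S → (∀ i, S i ∈ Z) → (⋃ i, S i) ∈ Z)
    (h2 : ∀ A : Set α, A ⊆ D → #A ≤ lam → ∃ M ∈ Z, A ⊆ M ∧ M ⊆ D ∧ #M ≤ lam) :
    D ∈ Z := by
  obtain ⟨M, hMZ, hDM, hMD, _⟩ := chain_cofinal_aux D Z lam hlam h1 h2 (max #D lam)
    (le_max_right _ _) D le_rfl (le_max_left _ _)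
  rwa [subset_antisymm hDM hMD]

/-- Transfinite exhaustion: a family of subsets containing `T0`, closed under adding one point and
under unions of well-ordered chains, contains the whole space. -/
theorem exhaust {α : Type u} (T0 : Set α) (Z : Set (Set α)) (h0 : T0 ∈ Z)
    (hins : ∀ T ∈ Z, ∀ x : α, insert x T ∈ Z)
    (h1 : ∀ (ι : Type u) [LinearOrder ι] [WellFoundedLT ι] [Nonempty ι] (S : ι → Set α),
        Monotone S → (∀ i, S i ∈ Z) → (⋃ i, S i) ∈ Z) :
    (univ : Set α) ∈ Z := by
  classical
  obtain ⟨_, _⟩ := exists_wellFoundedLT α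
  let T : α → Set α := fun i => T0 ∪ Iic i
  have hTmono : Monotone T := fun i j hij => union_subset_union_right _ (Iic_subset_Iic.mpr hij)
  have hT : ∀ i, T i ∈ Z := by
    intro i
    induction i using WellFoundedLT.induction with
    | ind i ih =>
      have hTi : T i = insert i (T0 ∪ Iio i) := by
        ext x
        simp only [T, mem_union, mem_Iic, mem_insert_iff, mem_Iio, le_iff_eq_or_lt]
        tauto
      rw [hTi]
      apply hins
      by_cases hne : Nonempty (Iio i)
      · have hU : T0 ∪ Iio i = ⋃ j : Iio i, T j.1 := by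
          ext x
          simp only [T, mem_union, mem_Iio, mem_iUnion, mem_Iic]
          constructor
          · rintro (hx | hx)
            · exact ⟨hne.some, Or.inl hx⟩
            · exact ⟨⟨x, hx⟩, Or.inr le_rfl⟩
          · rintro ⟨j, hx | hx⟩
            · exact Or.inl hx
            · exact Or.inr (lt_of_le_of_lt hx j.2)
        rw [hU]
        exact h1 (Iio i) (fun j => T j.1) (fun a b hab => hTmono hab) (fun j => ih j.1 j.2)
      · have hU : T0 ∪ Iio i = T0 := by
          rw [union_eq_left]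
          intro x hx
          exact absurd ⟨⟨x, hx⟩⟩ hne
        rw [hU]
        exact h0
  by_cases hne : Nonempty α
  · have hU : (univ : Set α) = ⋃ i, T i := by
      symm
      rw [eq_univ_iff_forall]
      intro x
      exact mem_iUnion.mpr ⟨x, Or.inr (mem_Iic.mpr le_rfl)⟩
    rw [hU]
    exact h1 α T hTmono hT
  · have : (univ : Set α) = T0 := by
      ext x
      exact absurd ⟨x⟩ hne
    rw [this]
    exact h0

end Vale.Agent.Lib.P307
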