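import Vale.Agent.Lib.P307.Defs
import Vale.Agent.Lib.P307.SetLemma

/-!
# AECs in monadic vocabularies: basic tools
-/

open FirstOrder FirstOrder.Language Cardinal Set

universe u

namespace Vale.Agent.Lib.P307

/-- A vocabulary is monadic if it consists of unary relation symbols only. -/
structure Monadic (L : FirstOrder.Language.{u, u}) : Prop where
  noFun : ∀ n, IsEmpty (L.Functions n)
  noRel : ∀ n, n ≠ 1 → IsEmpty (L.Relations n)

/-- The colour of an element: the set of unary relation symbols it satisfies. -/
def col (L : FirstOrder.Language.{u, u}) {M : Type u} [L.Structure M] (x : M) :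
    Set (L.Relations 1) :=
  {r | Structure.RelMap r (fun _ => x)}

variable {L : FirstOrder.Language.{u, u}}

theorem col_emb {M N : Type u} [L.Structure M] [L.Structure N] (f : M ↪[L] N) (x : M) :
    col L (f x) = col L x := by
  ext r
  exact f.map_rel r (fun _ => x)

theorem col_equiv {M N : Type u} [L.Structure M] [L.Structure N] (f : M ≃[L] N) (x : M) :
    col L (f x) = col L x := col_emb f.toEmbedding x

theorem col_coe {M : Type u} [L.Structure M] (S : L.Substructure M) (x : S) :
    col L (x : M) = col L x := col_emb S.subtype x

/-- In a monadic vocabulary every subset is a substructure. -/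
def sub (hL : Monadic L) {M : Type u} [L.Structure M] (A : Set M) : L.Substructure M :=
  ⟨A, fun {n} f => (hL.noFun n).elim f⟩

@[simp] theorem mem_sub (hL : Monadic L) {M : Type u} [L.Structure M] (A : Set M) (x : M) :
    x ∈ sub hL A ↔ x ∈ A := Iff.rfl

@[simp] theorem coe_sub (hL : Monadic L) {M : Type u} [L.Structure M] (A : Set M) :
    ((sub hL A : L.Substructure M) : Set M) = A := rfl

theorem sub_coe (hL : Monadic L) {M : Type u} [L.Structure M] (S : L.Substructure M) :
    sub hL (S : Set M) = S := by
  ext x; rfl

/-- A colour-preserving bijection is an isomorphism. -/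
def isoOfEquiv (hL : Monadic L) {M N : Type u} [L.Structure M] [L.Structure N] (e : M ≃ N)
    (h : ∀ x, col L (e x) = col L x) : M ≃[L] N where
  toEquiv := e
  map_fun' := fun {n} f => (hL.noFun n).elim f
  map_rel' := by
    intro n r x
    by_cases hn : n = 1
    · subst hn
      have hx : x = fun _ => x 0 := by
        funext i
        rw [Subsingleton.elim i 0]
      have h1 : (r ∈ col L (e (x 0))) ↔ (r ∈ col L (x 0)) := by rw [h]
      rw [hx]
      exact h1
    · exact (hL.noRel n hn).elim r

@[simp] theorem isoOfEquiv_apply (hL : Monadic L) {M N : Type u} [L.Structure M] [L.Structure N]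
    (e : M ≃ N) (h : ∀ x, col L (e x) = col L x) (x : M) :
    isoOfEquiv hL e h x = e x := rfl

/-- Number of elements of colour `t`. -/
def cnt (L : FirstOrder.Language.{u, u}) (M : Type u) [L.Structure M] (t : Set (L.Relations 1)) :
    Cardinal.{u} :=
  #{x : M // col L x = t}

/-- Structures with the same colour counts are isomorphic. -/
theorem iso_of_cnt (hL : Monadic L) {M N : Type u} [L.Structure M] [L.Structure N]
    (h : ∀ t, cnt L M t = cnt L N t) : Nonempty (M ≃[L] N) := by
  have h' : ∀ t : Set (L.Relations 1),
      Nonempty ({x : M // col L x = t} ≃ {y : N // col L y = t}) :=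
    fun t => Cardinal.eq.mp (h t)
  let e : M ≃ N := Equiv.ofFiberEquiv (fun t => (h' t).some)
  refine ⟨isoOfEquiv hL e ?_⟩
  intro x
  exact Equiv.ofFiberEquiv_map (fun t => (h' t).some) x

theorem cnt_of_iso {M N : Type u} [L.Structure M] [L.Structure N] (e : M ≃[L] N)
    (t : Set (L.Relations 1)) : cnt L M t = cnt L N t := by
  unfold cnt
  apply Cardinal.mk_congr
  exact e.toEquiv.subtypeEquiv (fun x => by
    have : col L (e x) = col L x := col_equiv e x
    change col L x = t ↔ col L (e x) = t
    rw [this])

end Vale.Agent.Lib.P307
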