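import Vale.Agent.Lib.P307.Monadic

/-!
# The shrinking lemma for AECs in monadic vocabularies
-/

open FirstOrder FirstOrder.Language Cardinal Set

universe u

namespace Vale.Agent.Lib.P307

/-- A colour-preserving permutation moving `E` into a disjoint set `F` and fixing everything
outside `E ∪ F`. -/
theorem exists_swap {N C : Type u} (c : N → C) (E F : Set N) (hEF : Disjoint E F)
    (h : ∀ t, #{x | x ∈ E ∧ c x = t} ≤ #{y | y ∈ F ∧ c y = t}) :
    ∃ σ : N ≃ N, (∀ x, c (σ x) = c x) ∧ (∀ x ∈ E, σ x ∈ F) ∧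
      (∀ x, x ∉ E → x ∉ F → σ x = x) := by
  classical
  have h' : ∀ t, Nonempty (↥{x | x ∈ E ∧ c x = t} ↪ ↥{y | y ∈ F ∧ c y = t}) := fun t =>
    Cardinal.le_def _ _ |>.mp (h t)
  let ψ := fun t => (h' t).some
  let φ : E → N := fun x => (ψ (c x) ⟨x, x.2, rfl⟩ : N)
  have hφF : ∀ x : E, φ x ∈ F := fun x => (ψ (c x) ⟨x, x.2, rfl⟩).2.1
  have hφc : ∀ x : E, c (φ x) = c x := fun x => (ψ (c x) ⟨x, x.2, rfl⟩).2.2
  have hφinj : Function.Injective φ := by
    intro x y hxy
    have hc : c (x : N) = c (y : N) := by rw [← hφc x, ← hφc y, hxy]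
    have key : ∀ (t : C) (hx : c (x : N) = t) (hy : c (y : N) = t),
        ((ψ t ⟨x, x.2, hx⟩ : N) = (ψ t ⟨y, y.2, hy⟩ : N)) → x = y := by
      intro t hx hy he
      have := (ψ t).injective (Subtype.ext he)
      exact Subtype.ext (Subtype.mk.inj this)
    apply key (c (y : N)) hc rfl
    have h2 : ∀ (t : C) (hx : c (x : N) = t), (ψ t ⟨x, x.2, hx⟩ : N) = φ x := by
      intro t hx
      subst hx
      rfl
    rw [h2 _ hc]
    exact hxy
  have hFE : ∀ x, x ∈ F → x ∉ E := fun x hxF hxE => (Set.disjoint_left.mp hEF) hxE hxF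
  let f : N → N := fun x =>
    if h : x ∈ E then φ ⟨x, h⟩ else if h' : ∃ y : E, φ y = x then (h'.choose : N) else x
  have hf1 : ∀ x (h : x ∈ E), f x = φ ⟨x, h⟩ := fun x h => by simp only [f, dif_pos h]
  have hf2 : ∀ y : E, f (φ y) = y := by
    intro y
    have hnE : φ y ∉ E := hFE _ (hφF y)
    have hex : ∃ z : E, φ z = φ y := ⟨y, rfl⟩
    simp only [f, dif_neg hnE, dif_pos hex]
    exact congrArg _ (hφinj hex.choose_spec)
  have hf3 : ∀ x, x ∉ E → (¬ ∃ y : E, φ y = x) → f x = x := by
    intro x h1 h2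
    simp only [f, dif_neg h1, dif_neg h2]
  have hinv : Function.Involutive f := by
    intro x
    by_cases h1 : x ∈ E
    · rw [hf1 x h1, hf2]
    · by_cases h2 : ∃ y : E, φ y = x
      · obtain ⟨y, rfl⟩ := h2
        rw [hf2, hf1 _ y.2]
      · rw [hf3 x h1 h2, hf3 x h1 h2]
  refine ⟨hinv.toPerm, ?_, ?_, ?_⟩
  · intro x
    change c (f x) = c x
    by_cases h1 : x ∈ E
    · rw [hf1 x h1, hφc]
    · by_cases h2 : ∃ y : E, φ y = x
      · obtain ⟨y, rfl⟩ := h2
        rw [hf2, hφc]
      · rw [hf3 x h1 h2]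
  · intro x hx
    change f x ∈ F
    rw [hf1 x hx]
    exact hφF _
  · intro x h1 h2
    change f x = x
    apply hf3 x h1
    rintro ⟨y, rfl⟩
    exact h2 (hφF y)

variable {L : FirstOrder.Language.{u, u}}

/-- **Shrinking lemma.** If `N` is in `K` and every element outside `D` has a colour that occurs
more than `lam` times in `D`, then `D ≤_K N`. -/
theorem strong_of_big (hL : Monadic L) (K : AEC L) {lam : Cardinal.{u}} (hls : K.LSWitness lam)
    {N : Type u} [L.Structure N] (hN : K.mem N) (D : Set N)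
    (hD : ∀ x, x ∉ D → lam < #{y | y ∈ D ∧ col L y = col L x}) :
    K.strong N (sub hL D) := by
  have hlam : ℵ₀ ≤ lam := hls.1
  apply chain_cofinal D {M | K.strong N (sub hL M)} lam hlam
  · intro ι _ _ _ S hmono hS
    apply K.chain_le N ι (fun i => sub hL (S i)) (sub hL (⋃ i, S i))
    · intro i j hij
      exact hmono hij
    · intro i j hij
      exact K.coherence (S := sub hL (S i)) (T := sub hL (S j)) (hmono hij) (hS i) (hS j)
    · exact hS
    · intro x
      simp
  · intro A hAD hA
    obtain ⟨S, hS, hAS, hcard⟩ := hls.2.2 N hN A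
    have hSlam : #(S : Set N) ≤ lam := by
      calc #(S : Set N) ≤ #A + lam := hcard
        _ ≤ lam + lam := by gcongr
        _ = lam := add_eq_self hlam
    obtain ⟨σ, hσc, hσE, hσfix⟩ := exists_swap (col L) ((S : Set N) \ D) (D \ (S : Set N))
      (Set.disjoint_left.mpr fun x hx hx' => hx.2 hx'.1) (by
        intro t
        by_cases hne : ∃ x, x ∈ (S : Set N) \ D ∧ col L x = t
        · obtain ⟨x, hx, rfl⟩ := hne
          have hbig := hD x hx.2
          have hsub : {y | y ∈ D ∧ col L y = col L x} ⊆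
              {y | y ∈ D \ (S : Set N) ∧ col L y = col L x} ∪ (S : Set N) := by
            intro y hy
            by_cases hyS : y ∈ (S : Set N)
            · exact Or.inr hyS
            · exact Or.inl ⟨⟨hy.1, hyS⟩, hy.2⟩
          have h1 : lam < #{y | y ∈ D \ (S : Set N) ∧ col L y = col L x} := by
            by_contra hcon
            rw [not_lt] at hcon
            have : #{y | y ∈ D ∧ col L y = col L x} ≤ lam := by
              calc #{y | y ∈ D ∧ col L y = col L x}
                  ≤ #({y | y ∈ D \ (S : Set N) ∧ col L y = col L x} ∪ (S : Set N) : Set N) :=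
                    mk_le_mk_of_subset hsub
                _ ≤ #{y | y ∈ D \ (S : Set N) ∧ col L y = col L x} + #(S : Set N) :=
                    mk_union_le _ _
                _ ≤ lam + lam := by gcongr
                _ = lam := add_eq_self hlam
            exact absurd hbig (not_lt.mpr this)
          have h2 : #{y | y ∈ (S : Set N) \ D ∧ col L y = col L x} ≤ #(S : Set N) :=
            mk_le_mk_of_subset (fun y hy => hy.1.1)
          exact (h2.trans hSlam).trans h1.le
        · have : IsEmpty ↥{x | x ∈ (S : Set N) \ D ∧ col L x = t} :=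
            ⟨fun x => hne ⟨x.1, x.2⟩⟩
          rw [mk_eq_zero]
          exact zero_le)
    let e : N ≃[L] N := isoOfEquiv hL σ hσc
    have hmap : S.map e.toHom = sub hL (σ '' (S : Set N)) := by
      ext y
      simp only [Substructure.mem_map, mem_sub, Set.mem_image, SetLike.mem_coe]
      rfl
    refine ⟨σ '' (S : Set N), ?_, ?_, ?_, ?_⟩
    · change K.strong N (sub hL (σ '' (S : Set N)))
      rw [← hmap]
      exact K.strong_iso e hS
    · intro a ha
      refine ⟨a, hAS ha, hσfix a (fun h => h.2 (hAD ha)) (fun h => h.2 (hAS ha))⟩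
    · rintro _ ⟨x, hx, rfl⟩
      by_cases hxD : x ∈ D
      · rw [hσfix x (fun h => h.2 hxD) (fun h => h.2 hx)]
        exact hxD
      · exact (hσE x ⟨hx, hxD⟩).1
    · rw [mk_image_eq σ.injective]
      exact hSlam

end Vale.Agent.Lib.P307
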