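import Vale.Agent.Lib.P307.Grow

/-!
# Categoricity transfer for AECs in monadic vocabularies
-/

open FirstOrder FirstOrder.Language Cardinal Set Order

universe u

namespace Vale.Agent.Lib.P307

variable {L : FirstOrder.Language.{u, u}}

theorem cnt_eq_mk (M : Type u) [L.Structure M] (t : Set (L.Relations 1)) :
    cnt L M t = #{x : M | col L x = t} := rfl

/-- Every structure has a core: all elements of colours occurring at most `lam` times, and
exactly `succ lam` elements of every other colour. -/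
theorem exists_core (lam : Cardinal.{u}) (M : Type u) [L.Structure M] :
    ∃ D : Set M, (∀ x, x ∉ D → lam < #{y | y ∈ D ∧ col L y = col L x}) ∧
      ∀ t, #{y | y ∈ D ∧ col L y = t} = min (cnt L M t) (succ lam) := by
  classical
  have h1 : ∀ t : Set (L.Relations 1), ∃ p : Set M, p ⊆ {x : M | col L x = t} ∧
      #p = min (cnt L M t) (succ lam) ∧ (cnt L M t ≤ lam → p = {x : M | col L x = t}) := by
    intro t
    by_cases ht : cnt L M t ≤ lam
    · refine ⟨{x : M | col L x = t}, le_rfl, ?_, fun _ => rfl⟩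
      rw [min_eq_left (ht.trans (le_succ lam))]
      rfl
    · obtain ⟨p, hp, hpc⟩ := le_mk_iff_exists_subset.mp
        (show min (cnt L M t) (succ lam) ≤ #{x : M | col L x = t} from min_le_left _ _)
      exact ⟨p, hp, hpc, fun h => absurd h ht⟩
  choose p hp hpc hpall using h1
  have hfib : ∀ t, {y | y ∈ {x : M | x ∈ p (col L x)} ∧ col L y = t} = p t := by
    intro t
    ext y
    constructor
    · rintro ⟨hy, rfl⟩
      exact hy
    · intro hy
      have : col L y = t := hp t hy
      subst this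
      exact ⟨hy, rfl⟩
  refine ⟨{x | x ∈ p (col L x)}, ?_, ?_⟩
  · intro x hx
    rw [hfib, hpc]
    have hbig : lam < cnt L M (col L x) := by
      by_contra hcon
      apply hx
      change x ∈ p (col L x)
      rw [hpall _ (not_lt.mp hcon)]
      rfl
    exact lt_min hbig (lt_succ lam)
  · intro t
    rw [hfib, hpc]

/-- Membership in `K` only depends on the colour counts truncated at `succ lam`. -/
theorem mem_transfer (hL : Monadic L) (K : AEC L) {lam : Cardinal.{u}} (hls : K.LSWitness lam)
    {N N' : Type u} [L.Structure N] [L.Structure N'] (hN : K.mem N)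
    (h : ∀ t, min (cnt L N t) (succ lam) = min (cnt L N' t) (succ lam)) : K.mem N' := by
  obtain ⟨D, hD1, hD2⟩ := exists_core (L := L) lam N
  obtain ⟨D', hD1', hD2'⟩ := exists_core (L := L) lam N'
  have h1 : K.mem (sub hL D) := (K.strong_mem (strong_of_big hL K hls hN D hD1)).2
  have hiso : Nonempty ((sub hL D) ≃[L] (sub hL D')) := by
    apply iso_of_cnt hL
    intro t
    rw [cnt_sub, cnt_sub, hD2, hD2', h]
  exact mem_of_grow hL K hls D' (K.mem_iso hiso.some h1) hD1'

/-- The standard structure with prescribed colour counts. -/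
def Std (_hL : Monadic L) (c : Set (L.Relations 1) → Cardinal.{u}) : Type u := Σ t, (c t).out

instance stdStructure (hL : Monadic L) (c : Set (L.Relations 1) → Cardinal.{u}) :
    L.Structure (Std hL c) where
  funMap := fun {n} f _ => (hL.noFun n).elim f
  RelMap := fun {n} r x => ∃ h : n = 1, cast (congrArg L.Relations h) r ∈ (x ⟨0, by omega⟩).1

theorem col_std (hL : Monadic L) (c : Set (L.Relations 1) → Cardinal.{u}) (x : Std hL c) :
    col L x = x.1 := by
  ext r
  constructor
  · rintro ⟨_, hr⟩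
    exact hr
  · intro hr
    exact ⟨rfl, hr⟩

theorem cnt_std (hL : Monadic L) (c : Set (L.Relations 1) → Cardinal.{u})
    (t : Set (L.Relations 1)) : cnt L (Std hL c) t = c t := by
  unfold cnt
  have e : {x : Std hL c // col L x = t} ≃ (c t).out :=
    (Equiv.subtypeEquivRight (fun x => by rw [col_std])).trans
      (Equiv.sigmaSubtype (β := fun t => (c t).out) t)
  rw [Cardinal.mk_congr e, mk_out]

theorem mk_colours_le {lam : Cardinal.{u}} (h : L.card ≤ lam) :
    #(Set (L.Relations 1)) ≤ 2 ^ lam := by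
  rw [mk_set]
  apply power_le_power_left two_ne_zero
  refine le_trans ?_ h
  unfold Language.card
  exact mk_le_of_injective (f := fun r : L.Relations 1 => (Sum.inr ⟨1, r⟩ : L.Symbols))
    (fun a b hab => by
      have := Sum.inr_injective hab
      simpa using this)

theorem mk_le_of_cnt_le {lam θ : Cardinal.{u}} (h : L.card ≤ lam) (M : Type u) [L.Structure M]
    (hM : ∀ t, cnt L M t ≤ θ) : #M ≤ 2 ^ lam * θ := by
  calc #M ≤ #(Set (L.Relations 1)) * θ :=
        mk_le_mk_mul_of_mk_preimage_le (col L) (fun t => hM t)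
    _ ≤ 2 ^ lam * θ := by gcongr; exact mk_colours_le h

theorem cnt_le_mk (M : Type u) [L.Structure M] (t : Set (L.Relations 1)) : cnt L M t ≤ #M :=
  mk_subtype_le _

theorem exists_big {lam : Cardinal.{u}} (hlam : ℵ₀ ≤ lam) (h : L.card ≤ lam) (M : Type u)
    [L.Structure M] (hM : 2 ^ lam < #M) : ∃ t, lam < cnt L M t := by
  by_contra hcon
  have hcon' : ∀ t, cnt L M t ≤ lam := fun t => not_lt.mp (fun ht => hcon ⟨t, ht⟩)
  have h1 := mk_le_of_cnt_le h M hcon'
  have h2 : (2 : Cardinal.{u}) ^ lam * lam ≤ 2 ^ lam := by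
    calc (2 : Cardinal.{u}) ^ lam * lam ≤ 2 ^ lam * 2 ^ lam := by
          gcongr; exact (cantor lam).le
      _ = 2 ^ lam := mul_eq_self (hlam.trans (cantor lam).le)
  exact absurd hM (not_lt.mpr (h1.trans h2))

theorem mk_eq_of_cnt {lam θ : Cardinal.{u}} (hlam : ℵ₀ ≤ lam) (h : L.card ≤ lam) (M : Type u)
    [L.Structure M] (hθ : 2 ^ lam ≤ θ) (hM : ∀ t, cnt L M t ≤ θ) (t0 : Set (L.Relations 1))
    (ht0 : cnt L M t0 = θ) : #M = θ := by
  apply le_antisymm
  · calc #M ≤ 2 ^ lam * θ := mk_le_of_cnt_le h M hM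
      _ ≤ θ * θ := by gcongr
      _ = θ := mul_eq_self ((hlam.trans (cantor lam).le).trans hθ)
  · rw [← ht0]
    exact cnt_le_mk M t0

/-- colour counts: `θ` at `t0`, the truncated counts of `M` elsewhere -/
noncomputable def bump (lam : Cardinal.{u}) (M : Type u) [L.Structure M]
    (t0 : Set (L.Relations 1)) (θ : Cardinal.{u}) : Set (L.Relations 1) → Cardinal.{u} :=
  open Classical in fun t => if t = t0 then θ else min (cnt L M t) (succ lam)

theorem bump_self (lam : Cardinal.{u}) (M : Type u) [L.Structure M]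
    (t0 : Set (L.Relations 1)) (θ : Cardinal.{u}) : bump lam M t0 θ t0 = θ := by
  simp [bump]

theorem bump_ne (lam : Cardinal.{u}) (M : Type u) [L.Structure M]
    (t0 : Set (L.Relations 1)) (θ : Cardinal.{u}) {t : Set (L.Relations 1)} (ht : t ≠ t0) :
    bump lam M t0 θ t = min (cnt L M t) (succ lam) := by
  simp [bump, ht]

theorem succ_le_two_power (lam : Cardinal.{u}) : succ lam ≤ 2 ^ lam :=
  succ_le_of_lt (cantor lam)

theorem mem_bump (hL : Monadic L) (K : AEC L) {lam : Cardinal.{u}} (hls : K.LSWitness lam)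
    {M : Type u} [L.Structure M] (hM : K.mem M) {t0 : Set (L.Relations 1)}
    (ht0 : lam < cnt L M t0) {θ : Cardinal.{u}} (hθ : 2 ^ lam < θ) :
    K.mem (Std hL (bump lam M t0 θ)) ∧ #(Std hL (bump lam M t0 θ)) = θ := by
  constructor
  · apply mem_transfer hL K hls hM
    intro t
    rw [cnt_std]
    by_cases ht : t = t0
    · subst ht
      rw [bump_self, min_eq_right (succ_le_of_lt ht0),
        min_eq_right ((succ_le_two_power lam).trans hθ.le)]
    · rw [bump_ne _ _ _ _ ht, min_assoc, min_self]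
  · apply mk_eq_of_cnt hls.1 hls.2.1 _ hθ.le _ t0
    · rw [cnt_std, bump_self]
    · intro t
      rw [cnt_std]
      by_cases ht : t = t0
      · subst ht
        rw [bump_self]
      · rw [bump_ne _ _ _ _ ht]
        exact (min_le_right _ _).trans ((succ_le_two_power lam).trans hθ.le)

/-- Under categoricity in `κ > 2 ^ lam`, a model has at most one colour occurring more than `lam`
times. -/
theorem big_unique (hL : Monadic L) (K : AEC L) {lam : Cardinal.{u}} (hls : K.LSWitness lam)
    {κ : Cardinal.{u}} (hκ : 2 ^ lam < κ) (hcat : K.Categorical κ)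
    {M : Type u} [L.Structure M] (hM : K.mem M) {t1 t2 : Set (L.Relations 1)}
    (ht1 : lam < cnt L M t1) (ht2 : lam < cnt L M t2) : t1 = t2 := by
  by_contra hne
  obtain ⟨h1, h1'⟩ := mem_bump hL K hls hM ht1 hκ
  obtain ⟨h2, h2'⟩ := mem_bump hL K hls hM ht2 hκ
  obtain ⟨e⟩ := hcat.2 _ _ h1 h2 h1' h2'
  have h3 := cnt_of_iso e t1
  rw [cnt_std, cnt_std, bump_self, bump_ne _ _ _ _ hne] at h3
  have h4 : κ ≤ 2 ^ lam := by
    rw [h3]
    exact (min_le_right _ _).trans (succ_le_two_power lam)
  exact absurd hκ (not_lt.mpr h4)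

theorem cnt_eq_of_small {lam κ' : Cardinal.{u}} (hlam : ℵ₀ ≤ lam) (h : L.card ≤ lam)
    (M : Type u) [L.Structure M] (hκ' : 2 ^ lam < κ') (hM : #M = κ') (t0 : Set (L.Relations 1))
    (hsmall : ∀ t, t ≠ t0 → cnt L M t ≤ lam) : cnt L M t0 = κ' := by
  apply le_antisymm
  · rw [← hM]
    exact cnt_le_mk M t0
  · by_contra hcon
    rw [not_le] at hcon
    have h1 : ∀ t, cnt L M t ≤ max (cnt L M t0) lam := by
      intro t
      by_cases ht : t = t0
      · subst ht
        exact le_max_left _ _
      · exact (hsmall t ht).trans (le_max_right _ _)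
    have h2 := mk_le_of_cnt_le h M h1
    have hinf : ℵ₀ ≤ κ' := (hlam.trans (cantor lam).le).trans hκ'.le
    have h3 : (2 : Cardinal.{u}) ^ lam * max (cnt L M t0) lam < κ' :=
      mul_lt_of_lt hinf hκ' (max_lt hcon ((cantor lam).trans hκ'))
    rw [hM] at h2
    exact absurd h3 (not_lt.mpr h2)

/-- **Categoricity transfer in monadic vocabularies.** -/
theorem categorical_transfer (hL : Monadic L) (K : AEC L) {lam : Cardinal.{u}}
    (hls : K.LSWitness lam) {κ κ' : Cardinal.{u}} (hκ : 2 ^ lam < κ) (hκ' : 2 ^ lam < κ')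
    (hcat : K.Categorical κ) : K.Categorical κ' := by
  have hlam := hls.1
  have hcard := hls.2.1
  constructor
  · obtain ⟨N, _, hN, hNκ⟩ := hcat.1
    obtain ⟨t0, ht0⟩ := exists_big hlam hcard N (by rw [hNκ]; exact hκ)
    obtain ⟨h1, h2⟩ := mem_bump hL K hls hN ht0 hκ'
    exact ⟨_, _, h1, h2⟩
  · intro M1 M2 _ _ hM1 hM2 hc1 hc2
    obtain ⟨t1, ht1⟩ := exists_big hlam hcard M1 (by rw [hc1]; exact hκ')
    obtain ⟨t2, ht2⟩ := exists_big hlam hcard M2 (by rw [hc2]; exact hκ')
    obtain ⟨h1, h1'⟩ := mem_bump hL K hls hM1 ht1 hκ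
    obtain ⟨h2, h2'⟩ := mem_bump hL K hls hM2 ht2 hκ
    obtain ⟨e⟩ := hcat.2 _ _ h1 h2 h1' h2'
    have hcnt : ∀ t, bump lam M1 t1 κ t = bump lam M2 t2 κ t := by
      intro t
      have := cnt_of_iso e t
      rwa [cnt_std, cnt_std] at this
    have ht12 : t1 = t2 := by
      by_contra hne
      have h3 := hcnt t1
      rw [bump_self, bump_ne _ _ _ _ hne] at h3
      have h4 : κ ≤ 2 ^ lam := by
        rw [h3]
        exact (min_le_right _ _).trans (succ_le_two_power lam)
      exact absurd hκ (not_lt.mpr h4)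
    subst ht12
    have hs1 : ∀ t, t ≠ t1 → cnt L M1 t ≤ lam := fun t ht =>
      not_lt.mp (fun hb => ht (big_unique hL K hls hκ hcat hM1 hb ht1))
    have hs2 : ∀ t, t ≠ t1 → cnt L M2 t ≤ lam := fun t ht =>
      not_lt.mp (fun hb => ht (big_unique hL K hls hκ hcat hM2 hb ht2))
    apply iso_of_cnt hL
    intro t
    by_cases ht : t = t1
    · subst ht
      rw [cnt_eq_of_small hlam hcard M1 hκ' hc1 t hs1, cnt_eq_of_small hlam hcard M2 hκ' hc2 t hs2]
    · have h3 := hcnt t
      rw [bump_ne _ _ _ _ ht, bump_ne _ _ _ _ ht,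
        min_eq_left ((hs1 t ht).trans (le_succ lam)),
        min_eq_left ((hs2 t ht).trans (le_succ lam))] at h3
      exact h3

end Vale.Agent.Lib.P307
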